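import Mathlib

/-! P047: level-one Fourier sums of conical juntas. -/

namespace Vale.Agent.P047

open Finset

/-- the sign of a bit -/
def sg (b : Bool) : ℝ := if b then 1 else -1

/-- expectation over a uniform point of the cube -/
noncomputable def expec {n : ℕ} (g : (Fin n → Bool) → ℝ) : ℝ := (∑ x, g x) / 2 ^ n

/-- degree-one Fourier coefficient -/
noncomputable def coef {n : ℕ} (g : (Fin n → Bool) → ℝ) (i : Fin n) : ℝ :=
  expec fun x => g x * sg (x i)

/-- indicator of the subcube `x i = 1` for `i ∈ P`, `x i = -1` for `i ∈ N` -/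
noncomputable def ind {n : ℕ} (P N : Finset (Fin n)) (x : Fin n → Bool) : ℝ :=
  if (∀ i ∈ P, x i = true) ∧ (∀ i ∈ N, x i = false) then 1 else 0

theorem log_lower (y : ℝ) (h1 : -(1 / 2) ≤ y) (h2 : y ≤ 1 / 2) : y - y ^ 2 ≤ Real.log (1 + y) := by
  rcases le_total 0 y with h | h
  · have h3 : 1 - (1 + y)⁻¹ ≤ Real.log (1 + y) := Real.one_sub_inv_le_log_of_pos (by linarith)
    have h4 : y - y ^ 2 ≤ 1 - (1 + y)⁻¹ := by
      have h5 : 0 < 1 + y := by linarith
      have h6 : 1 - (1 + y)⁻¹ - (y - y ^ 2) = y ^ 3 / (1 + y) := by field_simp; ring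
      have h7 : 0 ≤ y ^ 3 / (1 + y) := by positivity
      linarith
    linarith
  · obtain ⟨u, hu⟩ : ∃ u, u = -y := ⟨_, rfl⟩
    have hu0 : 0 ≤ u := by linarith
    have hu1 : u ≤ 1 / 2 := by linarith
    have h3 := Real.abs_log_sub_add_sum_range_le (x := u) (by rw [abs_of_nonneg hu0]; linarith) 5
    rw [abs_of_nonneg hu0] at h3
    have h4 := (abs_le.1 h3).1
    have h5 : (1 : ℝ) - u = 1 + y := by rw [hu]; ring
    rw [h5] at h4
    have h6 : ∑ i ∈ range 5, u ^ (i + 1) / ((i : ℝ) + 1) =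
        u + u ^ 2 / 2 + u ^ 3 / 3 + u ^ 4 / 4 + u ^ 5 / 5 := by
      simp [Finset.sum_range_succ]; ring
    rw [h6] at h4
    have h7 : u ^ (5 + 1) / (1 + y) ≤ 2 * u ^ 6 := by
      rw [← h5, div_le_iff₀ (by linarith)]
      have h60 : 0 ≤ u ^ 6 := by positivity
      have h61 := mul_nonneg h60 (by linarith : 0 ≤ 1 - 2 * u)
      have h62 : u ^ (5 + 1) = u ^ 6 := by norm_num
      rw [h62]
      linarith
    have h8 : u ^ 3 / 3 + u ^ 4 / 4 + u ^ 5 / 5 + 2 * u ^ 6 ≤ u ^ 2 / 2 := by
      have h9 : u / 3 + u ^ 2 / 4 + u ^ 3 / 5 + 2 * u ^ 4 ≤ 1 / 2 := by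
        have a2 : u ^ 2 ≤ 1 / 4 := by nlinarith
        have a3 : u ^ 3 ≤ 1 / 8 := by nlinarith [mul_nonneg hu0 (sub_nonneg.2 a2)]
        have a4 : u ^ 4 ≤ 1 / 16 := by nlinarith [mul_nonneg hu0 (sub_nonneg.2 a3)]
        linarith
      have : 0 ≤ u ^ 2 := by positivity
      nlinarith
    have h10 : y - y ^ 2 = -u - u ^ 2 := by rw [hu]; ring
    rw [h10]
    linarith

theorem prod_lower {α : Type*} (s : Finset α) (t : α → ℝ) (ht : ∀ j ∈ s, |t j| ≤ 1 / 2) :
    1 + ∑ j ∈ s, (t j - t j ^ 2) ≤ ∏ j ∈ s, (1 + t j) := by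
  have h1 : Real.exp (∑ j ∈ s, (t j - t j ^ 2)) ≤ ∏ j ∈ s, (1 + t j) := by
    rw [Real.exp_sum]
    refine Finset.prod_le_prod (fun j _ => (Real.exp_pos _).le) fun j hj => ?_
    have h := abs_le.1 (ht j hj)
    have h2 : 0 < 1 + t j := by linarith [h.1]
    calc Real.exp (t j - t j ^ 2) ≤ Real.exp (Real.log (1 + t j)) :=
          Real.exp_le_exp.2 (log_lower _ (by linarith [h.1]) h.2)
      _ = 1 + t j := Real.exp_log h2
  have h2 := Real.add_one_le_exp (∑ j ∈ s, (t j - t j ^ 2))
  linarith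

theorem sum_prod_bool {n : ℕ} (φ : Fin n → Bool → ℝ) :
    ∑ x : Fin n → Bool, ∏ i, φ i (x i) = ∏ i, (φ i true + φ i false) := by
  have h := Finset.prod_univ_sum (fun _ : Fin n => (Finset.univ : Finset Bool)) φ
  rw [Fintype.piFinset_univ] at h
  rw [← h]
  refine Finset.prod_congr rfl fun i _ => ?_
  simp

theorem ind_prod {n : ℕ} (P N : Finset (Fin n)) (x : Fin n → Bool) :
    ind P N x = ∏ i, ((if i ∈ P then (if x i = true then (1:ℝ) else 0) else 1) *
      (if i ∈ N then (if x i = false then (1:ℝ) else 0) else 1)) := by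
  rw [Finset.prod_mul_distrib]
  have h1 : ∏ i, (if i ∈ P then (if x i = true then (1:ℝ) else 0) else 1) =
      if ∀ i ∈ P, x i = true then 1 else 0 := by
    split_ifs with h
    · refine Finset.prod_eq_one fun i _ => ?_
      by_cases hi : i ∈ P
      · simp [hi, h i hi]
      · simp [hi]
    · push Not at h
      obtain ⟨i, hi, hx⟩ := h
      refine Finset.prod_eq_zero (Finset.mem_univ i) ?_
      simp [hi, hx]
  have h2 : ∏ i, (if i ∈ N then (if x i = false then (1:ℝ) else 0) else 1) =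
      if ∀ i ∈ N, x i = false then 1 else 0 := by
    split_ifs with h
    · refine Finset.prod_eq_one fun i _ => ?_
      by_cases hi : i ∈ N
      · simp [hi, h i hi]
      · simp [hi]
    · push Not at h
      obtain ⟨i, hi, hx⟩ := h
      refine Finset.prod_eq_zero (Finset.mem_univ i) ?_
      simp [hi, hx]
  rw [h1, h2, ind]
  by_cases q1 : ∀ i ∈ P, x i = true
  · by_cases q2 : ∀ i ∈ N, x i = false
    · rw [if_pos ⟨q1, q2⟩, if_pos q1, if_pos q2]; norm_num
    · rw [if_neg (fun h => q2 h.2), if_neg q2, mul_zero]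
  · rw [if_neg (fun h => q1 h.1), if_neg q1, zero_mul]

/-- mass of a subcube under the product measure with means `e i` -/
theorem mass_ind {n : ℕ} (P N : Finset (Fin n)) (hd : Disjoint P N) (e : Fin n → ℝ) :
    ∑ x : Fin n → Bool, (∏ i, (1 + e i * sg (x i)) / 2) * ind P N x =
      (1 / 2) ^ (P.card + N.card) * ((∏ i ∈ P, (1 + e i)) * ∏ i ∈ N, (1 - e i)) := by
  obtain ⟨φ, hφ⟩ : ∃ φ : Fin n → Bool → ℝ, ∀ i b, φ i b = (1 + e i * sg b) / 2 *
        ((if i ∈ P then (if b = true then (1:ℝ) else 0) else 1) *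
      (if i ∈ N then (if b = false then (1:ℝ) else 0) else 1)) := ⟨_, fun _ _ => rfl⟩
  have h1 : ∀ x : Fin n → Bool, (∏ i, (1 + e i * sg (x i)) / 2) * ind P N x =
      ∏ i, φ i (x i) := by
    intro x
    rw [ind_prod, ← Finset.prod_mul_distrib]
    exact Finset.prod_congr rfl fun i _ => (hφ i (x i)).symm
  rw [Finset.sum_congr rfl fun x _ => h1 x, sum_prod_bool]
  have h2 : ∀ i : Fin n, (φ i true + φ i false) =
      (if i ∈ P then (1 / 2) * (1 + e i) else 1) * (if i ∈ N then (1 / 2) * (1 - e i) else 1) := by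
    intro i
    rw [hφ, hφ]
    by_cases hP : i ∈ P
    · have hN : i ∉ N := Finset.disjoint_left.1 hd hP
      simp [hP, hN, sg]; ring
    · by_cases hN : i ∈ N
      · simp [hP, hN, sg]; ring
      · simp [hP, hN, sg]; ring
  rw [Finset.prod_congr rfl fun i _ => h2 i, Finset.prod_mul_distrib, Finset.prod_ite_mem,
    Finset.prod_ite_mem, Finset.univ_inter, Finset.univ_inter, Finset.prod_mul_distrib,
    Finset.prod_mul_distrib, Finset.prod_const, Finset.prod_const, pow_add]
  ring

theorem expec_ind {n : ℕ} (P N : Finset (Fin n)) (hd : Disjoint P N) :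
    expec (ind P N) = (1 / 2) ^ (P.card + N.card) := by
  have h := mass_ind P N hd (fun _ => 0)
  simp only [zero_mul, add_zero, sub_zero, Finset.prod_const_one, mul_one] at h
  rw [← h, expec, Finset.sum_div]
  refine Finset.sum_congr rfl fun x _ => ?_
  simp [div_eq_inv_mul]

theorem coef_ind {n : ℕ} (P N : Finset (Fin n)) (hd : Disjoint P N) (j : Fin n) :
    coef (ind P N) j = (1 / 2) ^ (P.card + N.card) *
      ((if j ∈ P then 1 else 0) - (if j ∈ N then 1 else 0)) := by
  -- compare the mass under the bias `t` at coordinate `j` and no bias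
  have h1 := mass_ind P N hd (fun i => if i = j then 1 else 0)
  have h0 := mass_ind P N hd (fun _ => 0)
  have h2 : ∀ x : Fin n → Bool, ∏ i, (1 + (if i = j then (1:ℝ) else 0) * sg (x i)) / 2 =
      (1 / 2) ^ n * (1 + sg (x j)) := by
    intro x
    have : ∀ i, (1 + (if i = j then (1:ℝ) else 0) * sg (x i)) / 2 =
        (1 / 2) * (if i = j then (1 + sg (x j)) else 1) := by
      intro i
      by_cases h : i = j
      · subst h; simp; ring
      · simp [h]
    rw [Finset.prod_congr rfl fun i _ => this i, Finset.prod_mul_distrib, Finset.prod_const,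
      Finset.prod_ite_eq' Finset.univ j]
    simp
  have h3 : ∀ S : Finset (Fin n), ∏ i ∈ S, (1 + if i = j then (1:ℝ) else 0) =
      if j ∈ S then 2 else 1 := by
    intro S
    have : ∀ i, (1 + if i = j then (1:ℝ) else 0) = if i = j then 2 else 1 := by
      intro i; split_ifs <;> norm_num
    rw [Finset.prod_congr rfl fun i _ => this i, Finset.prod_ite_eq' S j]
  have h4 : ∀ S : Finset (Fin n), ∏ i ∈ S, (1 - if i = j then (1:ℝ) else 0) =
      if j ∈ S then 0 else 1 := by
    intro S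
    have : ∀ i, (1 - if i = j then (1:ℝ) else 0) = if i = j then 0 else 1 := by
      intro i; split_ifs <;> norm_num
    rw [Finset.prod_congr rfl fun i _ => this i, Finset.prod_ite_eq' S j]
  rw [h3, h4] at h1
  simp only [zero_mul, add_zero, sub_zero, Finset.prod_const_one, mul_one] at h0
  have h5 : ∑ x : Fin n → Bool, (∏ i, (1 + (if i = j then (1:ℝ) else 0) * sg (x i)) / 2) *
      ind P N x = ∑ x : Fin n → Bool, (∏ _i : Fin n, (1:ℝ) / 2) * ind P N x + coef (ind P N) j := by
    rw [coef, expec, Finset.sum_div, ← Finset.sum_add_distrib]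
    refine Finset.sum_congr rfl fun x _ => ?_
    rw [h2 x]
    simp only [Finset.prod_const, Finset.card_univ, Fintype.card_fin]
    have : (2:ℝ) ^ n ≠ 0 := by positivity
    rw [div_pow, one_pow]
    field_simp
  rw [h1, h0] at h5
  have hdis : j ∈ P → j ∉ N := fun h => Finset.disjoint_left.1 hd h
  by_cases hP : j ∈ P
  · have hN := hdis hP
    simp [hP, hN] at h5 ⊢
    linarith
  · by_cases hN : j ∈ N
    · simp [hP, hN] at h5 ⊢
      linarith
    · simp [hP, hN] at h5 ⊢
      linarith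

end Vale.Agent.P047
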