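import Mathlib
import Vale.Agent.P047.Cone

namespace Vale.Agent.P047

open Finset

theorem opt {A B W : ℝ} (hA : 0 ≤ A) (hW : 0 ≤ W)
    (h1 : ∀ ε : ℝ, 0 ≤ ε → ε ≤ 1 / 2 → ε * A ≤ B + ε ^ 2 * W) (h2 : A ≤ W) :
    A ≤ 2 * √(B * W) := by
  rcases eq_or_lt_of_le hW with h | h
  · have : A = 0 := by linarith
    rw [this]; positivity
  · have h3 := h1 (A / (2 * W)) (by positivity) (by rw [div_le_iff₀ (by positivity)]; linarith)
    have h4 : A ^ 2 ≤ 4 * (B * W) := by
      have e1 : A / (2 * W) * A = A ^ 2 / (2 * W) := by ring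
      have e2 : (A / (2 * W)) ^ 2 * W = A ^ 2 / (4 * W) := by field_simp; ring
      rw [e1, e2] at h3
      have e3 : A ^ 2 / (2 * W) - A ^ 2 / (4 * W) = A ^ 2 / (4 * W) := by field_simp; ring
      have e4 : A ^ 2 / (4 * W) ≤ B := by linarith
      rw [div_le_iff₀ (by positivity)] at e4
      linarith
    have h5 : A ≤ √(4 * (B * W)) := Real.le_sqrt_of_sq_le h4
    have h6 : √(4 * (B * W)) = 2 * √(B * W) := by
      rw [Real.sqrt_mul (by norm_num)]
      congr 1
      rw [show (4:ℝ) = 2 ^ 2 by norm_num]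
      exact Real.sqrt_sq (by norm_num)
    linarith

theorem two_prod {n : ℕ} (P N : Finset (Fin n)) (hd : Disjoint P N) (e : Fin n → ℝ) (ε : ℝ)
    (he : ∀ i, e i ^ 2 = ε ^ 2) (hε0 : 0 ≤ ε) (hε : ε ≤ 1 / 2) :
    1 + ((∑ i ∈ P, e i) - ∑ i ∈ N, e i) - ε ^ 2 * ((P.card : ℝ) + N.card) ≤
      (∏ i ∈ P, (1 + e i)) * ∏ i ∈ N, (1 - e i) := by
  have habs : ∀ i, |e i| ≤ 1 / 2 := by
    intro i
    have : |e i| = ε := by
      rw [← abs_of_nonneg hε0]
      exact sq_eq_sq_iff_abs_eq_abs _ _ |>.1 (he i)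
    rw [this]; exact hε
  obtain ⟨t, ht⟩ : ∃ t : Fin n → ℝ, ∀ i, t i = if i ∈ P then e i else - e i := ⟨_, fun _ => rfl⟩
  have h := prod_lower (P ∪ N) t (by
    intro j _
    rw [ht]
    split_ifs
    · exact habs j
    · rw [abs_neg]; exact habs j)
  rw [Finset.prod_union hd, Finset.sum_union hd] at h
  have p1 : ∏ i ∈ P, (1 + t i) = ∏ i ∈ P, (1 + e i) :=
    Finset.prod_congr rfl fun i hi => by rw [ht, if_pos hi]
  have p2 : ∏ i ∈ N, (1 + t i) = ∏ i ∈ N, (1 - e i) :=
    Finset.prod_congr rfl fun i hi => by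
      rw [ht, if_neg (Finset.disjoint_right.1 hd hi)]; ring
  have s1 : ∑ i ∈ P, (t i - t i ^ 2) = (∑ i ∈ P, e i) - ε ^ 2 * P.card := by
    rw [Finset.sum_congr rfl fun i hi => by rw [ht, if_pos hi, he], Finset.sum_sub_distrib]
    simp [mul_comm]
  have s2 : ∑ i ∈ N, (t i - t i ^ 2) = -(∑ i ∈ N, e i) - ε ^ 2 * N.card := by
    rw [Finset.sum_congr rfl fun i hi => by
      rw [ht, if_neg (Finset.disjoint_right.1 hd hi), neg_sq, he], Finset.sum_sub_distrib,
      Finset.sum_neg_distrib]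
    simp [mul_comm]
  rw [p1, p2, s1, s2] at h
  linarith

section

variable {n : ℕ} {ι : Type*} [Fintype ι]

theorem expec_sum (w : ι → ℝ) (h : ι → (Fin n → Bool) → ℝ) :
    expec (fun x => ∑ c, w c * h c x) = ∑ c, w c * expec (h c) := by
  simp only [expec]
  rw [Finset.sum_comm, Finset.sum_div]
  refine Finset.sum_congr rfl fun c _ => ?_
  rw [← Finset.mul_sum, mul_div_assoc]

theorem coef_sum (w : ι → ℝ) (h : ι → (Fin n → Bool) → ℝ) (i : Fin n) :
    coef (fun x => ∑ c, w c * h c x) i = ∑ c, w c * coef (h c) i := by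
  simp only [coef]
  rw [← expec_sum]
  congr 1
  funext x
  rw [Finset.sum_mul]
  exact Finset.sum_congr rfl fun c _ => by ring

theorem level_one (w : ι → ℝ) (hw : ∀ c, 0 ≤ w c) (P N : ι → Finset (Fin n))
    (hd : ∀ c, Disjoint (P c) (N c)) (g : (Fin n → Bool) → ℝ)
    (hg : ∀ x, g x = ∑ c, w c * ind (P c) (N c) x) (hg1 : ∀ x, g x ≤ 1) :
    ∑ i, |coef g i| ≤ 2 * √((1 - expec g) *
      ∑ c, w c * (1 / 2) ^ ((P c).card + (N c).card) * (((P c).card : ℝ) + (N c).card)) := by
  have hgf : g = fun x => ∑ c, w c * ind (P c) (N c) x := funext hg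
  have hE : expec g = ∑ c, w c * (1 / 2) ^ ((P c).card + (N c).card) := by
    rw [hgf, expec_sum]
    exact Finset.sum_congr rfl fun c _ => by rw [expec_ind _ _ (hd c)]
  have hC : ∀ i, coef g i = ∑ c, w c * ((1 / 2) ^ ((P c).card + (N c).card) *
      ((if i ∈ P c then 1 else 0) - (if i ∈ N c then 1 else 0))) := by
    intro i
    rw [hgf, coef_sum]
    exact Finset.sum_congr rfl fun c _ => by rw [coef_ind _ _ (hd c)]
  have hlin : ∀ e : Fin n → ℝ, ∑ i, e i * coef g i =
      ∑ c, w c * (1 / 2) ^ ((P c).card + (N c).card) * ((∑ i ∈ P c, e i) - ∑ i ∈ N c, e i) := by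
    intro e
    have : ∀ i, e i * coef g i = ∑ c, w c * (1 / 2) ^ ((P c).card + (N c).card) *
        ((if i ∈ P c then e i else 0) - (if i ∈ N c then e i else 0)) := by
      intro i
      rw [hC, Finset.mul_sum]
      refine Finset.sum_congr rfl fun c _ => ?_
      split_ifs <;> ring
    rw [Finset.sum_congr rfl fun i _ => this i, Finset.sum_comm]
    refine Finset.sum_congr rfl fun c _ => ?_
    rw [← Finset.mul_sum, Finset.sum_sub_distrib, Finset.sum_ite_mem, Finset.sum_ite_mem,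
      Finset.univ_inter, Finset.univ_inter]
  set W := ∑ c, w c * (1 / 2) ^ ((P c).card + (N c).card) * (((P c).card : ℝ) + (N c).card)
    with hW
  have hW0 : 0 ≤ W := Finset.sum_nonneg fun c _ => by
    have := hw c
    positivity
  obtain ⟨S, hS⟩ : ∃ S : Fin n → ℝ, ∀ i, S i = if 0 ≤ coef g i then 1 else -1 :=
    ⟨_, fun _ => rfl⟩
  have hS2 : ∀ i, S i ^ 2 = 1 := by intro i; rw [hS]; split_ifs <;> norm_num
  have hSc : ∀ i, S i * coef g i = |coef g i| := by
    intro i
    rw [hS]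
    split_ifs with h
    · rw [abs_of_nonneg h, one_mul]
    · rw [abs_of_neg (not_le.1 h)]; ring
  have hA0 : 0 ≤ ∑ i, |coef g i| := Finset.sum_nonneg fun i _ => abs_nonneg _
  refine opt hA0 hW0 ?_ ?_
  · intro ε h0 h1
    have hlow : ∀ c, 1 + ((∑ i ∈ P c, ε * S i) - ∑ i ∈ N c, ε * S i) -
        ε ^ 2 * (((P c).card : ℝ) + (N c).card) ≤
        (∏ i ∈ P c, (1 + ε * S i)) * ∏ i ∈ N c, (1 - ε * S i) := fun c =>
      two_prod (P c) (N c) (hd c) (fun i => ε * S i) ε
        (fun i => by rw [mul_pow, hS2, mul_one]) h0 h1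
    have hmass : ∑ x : Fin n → Bool, (∏ i, (1 + ε * S i * sg (x i)) / 2) * g x =
        ∑ c, w c * ((1 / 2) ^ ((P c).card + (N c).card) *
          ((∏ i ∈ P c, (1 + ε * S i)) * ∏ i ∈ N c, (1 - ε * S i))) := by
      have : ∀ x : Fin n → Bool, (∏ i, (1 + ε * S i * sg (x i)) / 2) * g x =
          ∑ c, w c * ((∏ i, (1 + ε * S i * sg (x i)) / 2) * ind (P c) (N c) x) := by
        intro x
        rw [hg, Finset.mul_sum]
        exact Finset.sum_congr rfl fun c _ => by ring
      rw [Finset.sum_congr rfl fun x _ => this x, Finset.sum_comm]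
      refine Finset.sum_congr rfl fun c _ => ?_
      rw [← Finset.mul_sum, mass_ind (P c) (N c) (hd c) (fun i => ε * S i)]
    have hone : ∑ x : Fin n → Bool, (∏ i, (1 + ε * S i * sg (x i)) / 2) = 1 := by
      have h := mass_ind (n := n) ∅ ∅ (by simp) (fun i => ε * S i)
      simpa [ind] using h
    have hle : ∑ x : Fin n → Bool, (∏ i, (1 + ε * S i * sg (x i)) / 2) * g x ≤ 1 := by
      refine (Finset.sum_le_sum fun x _ => ?_).trans hone.le
      have hpos : 0 ≤ ∏ i, (1 + ε * S i * sg (x i)) / 2 := by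
        refine Finset.prod_nonneg fun i _ => ?_
        have : |ε * S i * sg (x i)| ≤ 1 / 2 := by
          have hs : |sg (x i)| = 1 := by cases x i <;> simp [sg]
          have hs2 : |S i| = 1 := by
            rw [hS]; split_ifs <;> simp
          rw [abs_mul, abs_mul, hs, hs2, abs_of_nonneg h0]; linarith
        have := (abs_le.1 this).1
        linarith
      calc _ ≤ (∏ i, (1 + ε * S i * sg (x i)) / 2) * 1 := mul_le_mul_of_nonneg_left (hg1 x) hpos
        _ = _ := mul_one _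
    have hsum : expec g + ε * (∑ i, |coef g i|) - ε ^ 2 * W ≤
        ∑ c, w c * ((1 / 2) ^ ((P c).card + (N c).card) *
          ((∏ i ∈ P c, (1 + ε * S i)) * ∏ i ∈ N c, (1 - ε * S i))) := by
      have e1 : ε * (∑ i, |coef g i|) = ∑ i, (ε * S i) * coef g i := by
        rw [Finset.mul_sum]
        exact Finset.sum_congr rfl fun i _ => by rw [← hSc i]; ring
      rw [e1, hlin, hE, hW, Finset.mul_sum, ← Finset.sum_add_distrib, ← Finset.sum_sub_distrib]
      refine Finset.sum_le_sum fun c _ => ?_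
      have hc : 0 ≤ w c * (1 / 2) ^ ((P c).card + (N c).card) := by
        have := hw c
        positivity
      have := mul_le_mul_of_nonneg_left (hlow c) hc
      linarith
    rw [hmass] at hle
    linarith
  · have e1 : ∑ i, |coef g i| = ∑ i, S i * coef g i :=
      Finset.sum_congr rfl fun i _ => (hSc i).symm
    rw [e1, hlin, hW]
    refine Finset.sum_le_sum fun c _ => ?_
    have hc : 0 ≤ w c * (1 / 2) ^ ((P c).card + (N c).card) := by
      have := hw c
      positivity
    refine mul_le_mul_of_nonneg_left ?_ hc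
    have b1 : ∑ i ∈ P c, S i ≤ (P c).card := by
      have : ∑ i ∈ P c, S i ≤ ∑ i ∈ P c, (1:ℝ) := Finset.sum_le_sum fun i _ => by
        rw [hS]; split_ifs <;> norm_num
      simpa using this
    have b2 : -(∑ i ∈ N c, S i) ≤ (N c).card := by
      have : ∑ i ∈ N c, (-S i) ≤ ∑ i ∈ N c, (1:ℝ) := Finset.sum_le_sum fun i _ => by
        rw [hS]; split_ifs <;> norm_num
      simpa using this
    linarith

end

end Vale.Agent.P047
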